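import Crest.Agent.N250.G.Ev2

/-!
# Row 250: the algebraic part of the Bernstein estimates (helper86)

`u k = ∑_{|w| = k} |D^w n|²`.  Universal constants come from the weight calculus `Wt`.
-/

set_option autoImplicit false
set_option linter.unusedSectionVars false

noncomputable section

namespace Crest.Agent.N250

open Crest.Agent.N222

/-- sum over all words of length `k` -/
def sumW {ι : Type} [Fintype ι] {M : Type} [AddCommMonoid M] : ℕ → (List ι → M) → M
  | 0, F => F []
  | k + 1, F => ∑ a, sumW k fun w => F (a :: w)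

section SumW

variable {ι : Type} [Fintype ι] {M : Type} [AddCommMonoid M]

theorem sumW_congr (k : ℕ) {F G : List ι → M} (h : ∀ w, w.length = k → F w = G w) :
    sumW k F = sumW k G := by
  induction k generalizing F G with
  | zero => exact h [] rfl
  | succ k ih => exact Finset.sum_congr rfl fun a _ => ih fun w hw => h _ (by simp [hw])

theorem map_sumW {N : Type} [AddCommMonoid N] (φ : M →+ N) (k : ℕ) (F : List ι → M) :
    φ (sumW k F) = sumW k fun w => φ (F w) := by
  induction k generalizing F with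
  | zero => rfl
  | succ k ih => simp only [sumW, map_sum, ih]

theorem sumW_add (k : ℕ) (F G : List ι → M) :
    sumW k (fun w => F w + G w) = sumW k F + sumW k G := by
  induction k generalizing F G with
  | zero => rfl
  | succ k ih => simp only [sumW, ih, Finset.sum_add_distrib]

theorem sumW_zero (k : ℕ) : sumW k (fun _ : List ι => (0 : M)) = 0 := by
  induction k with
  | zero => rfl
  | succ k ih => simp only [sumW, ih, Finset.sum_const_zero]

theorem sumW_sum {κ : Type} (s : Finset κ) (k : ℕ) (F : κ → List ι → M) :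
    sumW k (fun w => ∑ i ∈ s, F i w) = ∑ i ∈ s, sumW k (F i) := by
  classical
  induction s using Finset.induction_on with
  | empty => simp [sumW_zero]
  | insert a s ha ih => simp only [Finset.sum_insert ha, sumW_add, ih]

theorem sumW_le (k : ℕ) {F G : List ι → ℝ} (h : ∀ w, w.length = k → F w ≤ G w) :
    sumW k F ≤ sumW k G := by
  induction k generalizing F G with
  | zero => exact h [] rfl
  | succ k ih => exact Finset.sum_le_sum fun a _ => ih fun w hw => h _ (by simp [hw])

theorem sumW_nonneg (k : ℕ) {F : List ι → ℝ} (h : ∀ w, 0 ≤ F w) : 0 ≤ sumW k F := by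
  rw [← sumW_zero (ι := ι) k]; exact sumW_le k fun w _ => h w

theorem le_sumW {F : List ι → ℝ} (h : ∀ w, 0 ≤ F w) (w : List ι) : F w ≤ sumW w.length F := by
  induction w generalizing F with
  | nil => exact le_rfl
  | cons a w ih =>
    refine (ih (F := fun w => F (a :: w)) fun _ => h _).trans ?_
    exact Finset.single_le_sum (f := fun a => sumW w.length fun w => F (a :: w))
      (fun a _ => sumW_nonneg _ fun _ => h _) (Finset.mem_univ a)

theorem sumW_const (k : ℕ) (c : ℝ) :
    sumW k (fun _ : List ι => c) = (Fintype.card ι : ℝ) ^ k * c := by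
  induction k with
  | zero => simp [sumW]
  | succ k ih => simp only [sumW, ih, Finset.sum_const, Finset.card_univ, nsmul_eq_mul]; ring

theorem sumW_mul {R : Type} [CommRing R] (c : R) (k : ℕ) (F : List ι → R) :
    sumW k (fun w => c * F w) = c * sumW k F :=
  (map_sumW (AddMonoidHom.mulLeft c) k F).symm

end SumW

namespace Mov

variable {R : Type} [CommRing R] {ι : Type} [Fintype ι] (S : Mov R ι)

/-- iterated tangential derivatives -/
def Dw : List ι → R → R
  | [], f => f
  | a :: w, f => S.D a (Dw w f)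

/-- `∑_{|w| = k} (D^w f)²` -/
def nk (k : ℕ) (f : R) : R := sumW k fun w => S.Dw w f * S.Dw w f

/-- `u k = ∑_{|w| = k} |D^w n|²`; `u 0 = 1`, `u 1 = |A|²`, `u 2 = DB2` -/
def u (k : ℕ) : R := ∑ b, S.nk k (S.n b)

theorem u_one : S.u 1 = S.a2 := Finset.sum_comm

theorem u_two : S.u 2 = S.DB2 := by
  simp only [u, nk, sumW, Dw, DB2, B]
  rw [Finset.sum_comm]
  exact Finset.sum_congr rfl fun a _ => Finset.sum_comm

section Hom

variable {S} {R' : Type} [CommRing R'] {S' : Mov R' ι} {φ : R →+* R'} (H : S.Hom S' φ)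
include H

theorem Hom.Dw (w : List ι) (f : R) : φ (S.Dw w f) = S'.Dw w (φ f) := by
  induction w with
  | nil => rfl
  | cons a w ih => simp only [Mov.Dw, H.D, ih]

theorem Hom.nk (k : ℕ) (f : R) : φ (S.nk k f) = S'.nk k (φ f) := by
  have := map_sumW φ.toAddMonoidHom k fun w => S.Dw w f * S.Dw w f
  simp only [RingHom.toAddMonoidHom_eq_coe, AddMonoidHom.coe_coe, map_mul, H.Dw] at this
  exact this

theorem Hom.u (k : ℕ) : φ (S.u k) = S'.u k := by simp only [Mov.u, map_sum, H.nk, H.n]

end Hom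

variable [Algebra ℝ R]

theorem ev_nk (ev : R →ₐ[ℝ] ℝ) (k : ℕ) (f : R) :
    ev (S.nk k f) = sumW k fun w => ev (S.Dw w f) * ev (S.Dw w f) := by
  have := map_sumW ev.toRingHom.toAddMonoidHom k fun w => S.Dw w f * S.Dw w f
  simp only [RingHom.toAddMonoidHom_eq_coe, AddMonoidHom.coe_coe, map_mul,
    AlgHom.toRingHom_eq_coe, RingHom.coe_coe] at this
  exact this

theorem ev_nk_nonneg (ev : R →ₐ[ℝ] ℝ) (k : ℕ) (f : R) : 0 ≤ ev (S.nk k f) := by
  rw [ev_nk]; exact sumW_nonneg _ fun _ => mul_self_nonneg _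

theorem ev_u_nonneg (ev : R →ₐ[ℝ] ℝ) (k : ℕ) : 0 ≤ ev (S.u k) := by
  rw [u, map_sum]; exact Finset.sum_nonneg fun _ _ => S.ev_nk_nonneg ev _ _

theorem ev_Dw_sq_le (ev : R →ₐ[ℝ] ℝ) (w : List ι) (f : R) :
    ev (S.Dw w f) ^ 2 ≤ ev (S.nk w.length f) := by
  rw [ev_nk, sq]
  exact le_sumW (F := fun w => ev (S.Dw w f) * ev (S.Dw w f)) (fun _ => mul_self_nonneg _) w

theorem ev_Dn_sq_le (ev : R →ₐ[ℝ] ℝ) (w : List ι) (b : ι) :
    ev (S.Dw w (S.n b)) ^ 2 ≤ ev (S.u w.length) := by
  refine (S.ev_Dw_sq_le ev w _).trans ?_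
  rw [u, map_sum]
  exact Finset.single_le_sum (f := fun b => ev (S.nk w.length (S.n b)))
    (fun _ _ => S.ev_nk_nonneg ev _ _) (Finset.mem_univ b)

end Mov

/-- natural functions -/
def NF (ι : Type) : Type 1 := ∀ (R : Type) [CommRing R] [Algebra ℝ R], Mov R ι → R

/-- `Wt m k F`: `F` is a universal polynomial in the `D^w n`, `|w| ≤ m`, of weight `k` -/
inductive Wt {ι : Type} [Fintype ι] [DecidableEq ι] (m : ℕ) : ℕ → NF ι → Prop
  | v (w : List ι) (b : ι) (h : w.length ≤ m) : Wt m w.length fun _ _ _ S => S.Dw w (S.n b)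
  | c (r : ℝ) : Wt m 0 fun R _ _ _ => algebraMap ℝ R r
  | zero (k : ℕ) : Wt m k fun _ _ _ _ => 0
  | add {k : ℕ} {F G : NF ι} : Wt m k F → Wt m k G → Wt m k fun R _ _ S => F R S + G R S
  | mul {k l : ℕ} {F G : NF ι} : Wt m k F → Wt m l G → Wt m (k + l) fun R _ _ S => F R S * G R S
  | congr {k : ℕ} {F G : NF ι} : Wt m k F →
      (∀ (R : Type) [CommRing R] [Algebra ℝ R] (S : Mov R ι), S.IsHyp → G R S = F R S) → Wt m k G

namespace Wt

variable {ι : Type} [Fintype ι] [DecidableEq ι] {m m' k l : ℕ} {F G : NF ι}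

theorem cast (h : Wt m k F) (e : k = l) : Wt m l F := e ▸ h

theorem mono (h : Wt m k F) (e : m ≤ m') : Wt m' k F := by
  induction h with
  | v w b h => exact .v w b (h.trans e)
  | c r => exact .c r
  | zero k => exact .zero k
  | add _ _ i j => exact .add i j
  | mul _ _ i j => exact .mul i j
  | congr _ e i => exact .congr i e

theorem D (h : Wt m k F) (a : ι) : Wt (m + 1) (k + 1) fun R _ _ S => S.D a (F R S) := by
  induction h with
  | v w b h => exact .v (a :: w) b (by simpa using h)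
  | c r => exact .congr (.zero _) fun R _ _ S H => H.const a r
  | zero k => exact .congr (.zero _) fun R _ _ S H => H.toIsDS.D_zero a
  | add _ _ i j => exact .congr (.add i j) fun R _ _ S H => H.add _ _ _
  | mul h1 h2 i j =>
    exact .congr (.add (((h1.mono (Nat.le_succ _)).mul j).cast (by omega))
      ((i.mul (h2.mono (Nat.le_succ _))).cast (by omega))) fun R _ _ S H => H.mul _ _ _
  | congr _ e i => exact .congr i fun R _ _ S H => by rw [e R S H]

theorem sum {κ : Type} (s : Finset κ) {F : κ → NF ι} (h : ∀ i, Wt m k (F i)) :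
    Wt m k fun R _ _ S => ∑ i ∈ s, F i R S := by
  classical
  induction s using Finset.induction_on with
  | empty => exact .congr (.zero _) fun R _ _ S _ => by simp
  | insert a s ha ih => exact .congr ((h a).add ih) fun R _ _ S _ => by rw [Finset.sum_insert ha]

theorem two_mul (h : Wt m k F) : Wt m k fun R _ _ S => 2 * F R S :=
  .congr (h.add h) fun R _ _ S _ => by ring

theorem n (b : ι) : Wt m 0 fun _ _ _ S => S.n b := .v [] b (Nat.zero_le _)

theorem B (a b : ι) : Wt (m + 1) 1 fun _ _ _ S => S.B a b := .v [a] b (by simp)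

theorem B2 (a b : ι) : Wt (m + 1) 2 fun _ _ _ S => S.B2 a b :=
  sum Finset.univ fun c => (B a c).mul (B c b)

theorem a2 : Wt (m + 1) 2 fun _ _ _ (S : Mov _ ι) => S.a2 :=
  sum Finset.univ fun a => sum Finset.univ fun b => (B a b).mul (B a b)

/-- the universal bound -/
theorem bound (h : Wt m k F) {K : ℝ} (hK : 0 ≤ K) : ∃ C : ℝ, 0 ≤ C ∧
    ∀ (R : Type) [CommRing R] [Algebra ℝ R] (S : Mov R ι), S.IsHyp → ∀ (ev : R →ₐ[ℝ] ℝ) (l : ℝ),
      0 ≤ l → (∀ w b, w.length ≤ m → |ev (S.Dw w (S.n b))| ≤ K * l ^ w.length) →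
      |ev (F R S)| ≤ C * l ^ k := by
  induction h with
  | v w b h => exact ⟨K, hK, fun R _ _ S _ ev l _ hb => hb w b h⟩
  | c r => exact ⟨|r|, abs_nonneg _, fun R _ _ S _ ev l _ _ => by simp⟩
  | zero k => exact ⟨0, le_rfl, fun R _ _ S _ ev l _ _ => by simp⟩
  | add _ _ i j =>
    obtain ⟨C, hC, i⟩ := i
    obtain ⟨C', hC', j⟩ := j
    refine ⟨C + C', by positivity, fun R _ _ S H ev l hl hb => ?_⟩
    have := i R S H ev l hl hb
    have := j R S H ev l hl hb
    rw [map_add, add_mul]
    exact (abs_add_le _ _).trans (by linarith)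
  | mul _ _ i j =>
    obtain ⟨C, hC, i⟩ := i
    obtain ⟨C', hC', j⟩ := j
    refine ⟨C * C', by positivity, fun R _ _ S H ev l hl hb => ?_⟩
    rw [map_mul, abs_mul, pow_add, mul_mul_mul_comm]
    exact mul_le_mul (i R S H ev l hl hb) (j R S H ev l hl hb) (abs_nonneg _) (by positivity)
  | congr _ e i =>
    obtain ⟨C, hC, i⟩ := i
    exact ⟨C, hC, fun R _ _ S H ev l hl hb => by rw [e R S H]; exact i R S H ev l hl hb⟩

/-- the heat operator on `D^w n` -/
theorem box_Dw (w : List ι) (b : ι) : ∃ G : NF ι, Wt (w.length + 1) (w.length + 2) G ∧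
    ∀ (R : Type) [CommRing R] [Algebra ℝ R] (S : Mov R ι), S.IsMov → S.w = 0 →
      S.box (S.Dw w (S.n b)) = G R S := by
  induction w with
  | nil => exact ⟨_, a2.mul (n b), fun R _ _ S H hw => H.mcf_n hw b⟩
  | cons a w ih =>
    obtain ⟨G, hG, e⟩ := ih
    refine ⟨_, ((hG.D a).add (two_mul (sum Finset.univ fun c =>
      ((B2 a c).mul (.v (c :: w) b (Nat.le_succ _))).cast ?_))).add
      ((((n a).two_mul).mul (sum Finset.univ fun c => sum Finset.univ fun e =>
        ((B c e).mul (.v (c :: e :: w) b (by simp))).cast (l := w.length + 3) ?_)).cast ?_),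
      fun R _ _ S H hw => ?_⟩
    · simp only [List.length_cons]; omega
    · simp only [List.length_cons]; omega
    · omega
    · rw [Mov.Dw, H.mcf_D hw, e R S H hw]; rfl

theorem box_Dw_bound (k : ℕ) {K : ℝ} (hK : 0 ≤ K) : ∃ C : ℝ, 0 ≤ C ∧
    ∀ (R : Type) [CommRing R] [Algebra ℝ R] (S : Mov R ι), S.IsMov → S.w = 0 →
      ∀ (ev : R →ₐ[ℝ] ℝ) (l : ℝ), 0 ≤ l →
      (∀ w b, w.length ≤ k + 1 → |ev (S.Dw w (S.n b))| ≤ K * l ^ w.length) →
      ∀ w b, w.length = k → |ev (S.box (S.Dw w (S.n b)))| ≤ C * l ^ (k + 2) := by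
  choose G hG e using box_Dw (ι := ι)
  choose C hC hb using fun w b => (hG w b).bound hK
  refine ⟨∑ b, sumW k fun w => C w b,
    Finset.sum_nonneg fun b _ => sumW_nonneg _ fun w => hC w b, ?_⟩
  intro R _ _ S H hw ev l hl h w b hk
  subst hk
  rw [e w b R S H hw]
  refine (hb w b R S H.toIsHyp ev l hl h).trans (mul_le_mul_of_nonneg_right ?_ (by positivity))
  exact (le_sumW (F := fun w => C w b) (fun w => hC w b) w).trans
    (Finset.single_le_sum (f := fun b => sumW w.length fun w => C w b)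
      (fun b _ => sumW_nonneg _ fun w => hC w b) (Finset.mem_univ b))

end Wt

end Crest.Agent.N250

end
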