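import Crest.Agent.N250.G.Ev

/-!
# Row 250: evolution equations of the curvature (helper86)
-/

set_option autoImplicit false
set_option linter.unusedSectionVars false

noncomputable section

namespace Crest.Agent.N250

open Crest.Agent.N222

namespace Mov

variable {R : Type} [CommRing R] {ι : Type} [Fintype ι] (S : Mov R ι)

/-- `B³` -/
def B3 (a b : ι) : R := ∑ c, S.B2 a c * S.B c b

/-- `tr B³` -/
def a3 : R := ∑ a, ∑ b, S.B2 a b * S.B a b

/-- `tr B⁴` -/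
def a4 : R := ∑ a, ∑ b, S.B2 a b * S.B2 a b

/-- the covariant derivative `∇A` -/
def dB (a b c : ι) : R := S.D a (S.B b c) + S.n b * S.B2 a c + S.n c * S.B2 a b

/-- `|∇A|²` -/
def dB2 : R := ∑ a, ∑ b, ∑ c, S.dB a b c * S.dB a b c

/-- `∑ |D B|²` (ambient components) -/
def DB2 : R := ∑ a, ∑ b, ∑ c, S.D a (S.B b c) * S.D a (S.B b c)

/-- `⟨x, n⟩` -/
def xn : R := ∑ a, S.x a * S.n a

/-- `|x|²` -/
def x2 : R := ∑ a, S.x a * S.x a

variable [Algebra ℝ R] [DecidableEq ι] {S}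

namespace IsHyp

variable (H : S.IsHyp)
include H

theorem n_DB (c d : ι) : ∑ a, S.n a * S.D c (S.B d a) = -S.B2 c d := by
  have h1 : S.D c (∑ b, S.n b * S.B d b) = 0 := by rw [H.B_n d, H.toIsDS.D_zero]
  rw [H.toIsDS.D_sum] at h1
  simp only [H.mul, Finset.sum_add_distrib] at h1
  have : ∑ a, S.D c (S.n a) * S.B d a = S.B2 c d :=
    Finset.sum_congr rfl fun a _ => by rw [H.B_symm d a]; rfl
  linear_combination h1 - this

theorem n_DB' (c d : ι) : ∑ a, S.n a * S.D c (S.B a d) = -S.B2 c d := by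
  simp only [H.B_symm _ d, H.n_DB]

theorem B2_n (a : ι) : ∑ b, S.n b * S.B2 a b = 0 := by simp only [H.B2_symm a, H.n_B2]

theorem n_dB1 (b c : ι) : ∑ a, S.n a * S.dB a b c = 0 := by
  have : ∀ a, S.n a * S.dB a b c = S.n a * S.D a (S.B b c) + S.n b * (S.n a * S.B2 a c)
      + S.n c * (S.n a * S.B2 a b) := fun a => by rw [Mov.dB]; ring
  simp only [this, Finset.sum_add_distrib, ← Finset.mul_sum, H.n_D, H.n_B2]; ring

theorem n_dB2 (a c : ι) : ∑ b, S.n b * S.dB a b c = 0 := by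
  have : ∀ b, S.n b * S.dB a b c = S.n b * S.D a (S.B b c) + (S.n b * S.n b) * S.B2 a c
      + S.n c * (S.n b * S.B2 a b) := fun a => by rw [Mov.dB]; ring
  simp only [this, Finset.sum_add_distrib, ← Finset.mul_sum, ← Finset.sum_mul, H.n_DB', H.B2_n,
    H.nn]; ring

theorem dB_symm (a b c : ι) : S.dB a b c = S.dB a c b := by
  rw [Mov.dB, Mov.dB, H.B_symm b c]; ring

theorem n_dB3 (a b : ι) : ∑ c, S.n c * S.dB a b c = 0 := by
  simp only [H.dB_symm a b, H.n_dB2]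

/-- Codazzi -/
theorem codazzi (a b c : ι) : S.dB a b c = S.dB b a c := by
  have e := H.DD_comm (S.n c) a b
  change S.D a (S.B b c) = S.D b (S.B a c) + S.n a * S.B2 b c - S.n b * S.B2 a c at e
  rw [Mov.dB, Mov.dB, e, H.B2_symm a b]; ring

theorem tr_dB (a : ι) : ∑ b, S.dB a b b = S.D a S.h := by
  simp only [Mov.dB, Finset.sum_add_distrib, H.B2_n, Mov.h, H.toIsDS.D_sum]; ring

/-- `|D B|² = |∇A|² + 2 tr A⁴` -/
theorem DB2_eq : S.DB2 = S.dB2 + 2 * S.a4 := by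
  have e : ∀ a b c, S.D a (S.B b c) * S.D a (S.B b c) = S.dB a b c * S.dB a b c
      - 2 * S.B2 a c * (S.n b * S.dB a b c) - 2 * S.B2 a b * (S.n c * S.dB a b c)
      + (S.n b * S.n b) * (S.B2 a c * S.B2 a c) + (S.n c * S.n c) * (S.B2 a b * S.B2 a b)
      + 2 * (S.n b * S.B2 a b) * (S.n c * S.B2 a c) := fun a b c => by rw [Mov.dB]; ring
  have e1 : ∀ a, ∑ b, ∑ c, 2 * S.B2 a c * (S.n b * S.dB a b c) = 0 := fun a => by
    rw [Finset.sum_comm]; simp only [← Finset.mul_sum, H.n_dB2, mul_zero, Finset.sum_const_zero]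
  simp only [Mov.DB2, e, Finset.sum_add_distrib, Finset.sum_sub_distrib, e1]
  simp only [← Finset.mul_sum, ← Finset.sum_mul, H.n_dB3, H.B2_n, H.nn, Mov.dB2, Mov.a4,
    mul_zero, one_mul, Finset.sum_const_zero]
  ring

theorem D_a2 (a : ι) : S.D a S.a2 = 2 * ∑ b, ∑ c, S.B b c * S.dB a b c := by
  have e : ∀ b c, S.D a (S.B b c * S.B b c) = 2 * (S.B b c * S.dB a b c)
      - 2 * S.B2 a c * (S.n b * S.B b c) - 2 * S.B2 a b * (S.n c * S.B b c) := fun b c => by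
    rw [H.mul, Mov.dB]; ring
  have e1 : ∑ b, ∑ c, 2 * S.B2 a c * (S.n b * S.B b c) = 0 := by
    rw [Finset.sum_comm]; simp only [← Finset.mul_sum, H.n_B, mul_zero, Finset.sum_const_zero]
  simp only [Mov.a2, H.toIsDS.D_sum, e, Finset.sum_sub_distrib, e1]
  simp only [← Finset.mul_sum, H.B_n, mul_zero, Finset.sum_const_zero]
  ring

theorem D_xn (a : ι) : S.D a S.xn = ∑ b, S.B a b * S.x b := by
  have e : ∀ b, S.D a (S.x b * S.n b) = S.B a b * S.x b + S.P a b * S.n b := fun b => by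
    rw [H.mul, Mov.B, Pre.P]; ring
  simp only [Mov.xn, H.toIsDS.D_sum, e, Finset.sum_add_distrib, H.P_n, add_zero]

theorem D_x2 (a : ι) : S.D a S.x2 = 2 * (S.x a - S.xn * S.n a) := by
  have e : ∀ b, S.D a (S.x b * S.x b) = 2 * (S.P a b * S.x b) := fun b => by
    rw [H.mul, Pre.P]; ring
  have e2 : ∑ b, S.n b * S.x b = S.xn := Finset.sum_congr rfl fun b _ => mul_comm _ _
  simp only [Mov.x2, H.toIsDS.D_sum, e, ← Finset.mul_sum, H.P_apply, e2]; ring

theorem gam_x (f : R) (b : ι) : S.gam f (S.x b) = S.D b f := by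
  rw [← H.toIsDS.PD b]
  exact Finset.sum_congr rfl fun c _ => by rw [mul_comm, H.symm b c]; rfl

theorem gam_comm (f g : R) : S.gam f g = S.gam g f :=
  Finset.sum_congr rfl fun _ _ => mul_comm _ _

theorem tr_P : ∑ a, S.P a a = (Fintype.card ι : R) - 1 := by
  simp [H.Pn, Finset.sum_sub_distrib, H.nn]

theorem lap_x (a : ι) : S.lap (S.x a) = -(S.h * S.n a) := H.H_eq a

theorem lap_x2 : S.lap S.x2 = 2 * ((Fintype.card ι : R) - 1) - 2 * S.h * S.xn := by
  have e : ∀ b, S.lap (S.x b * S.x b) = 2 * S.P b b - 2 * S.h * (S.x b * S.n b) := fun b => by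
    rw [H.toIsDS.lap_mul, H.gam_x, H.lap_x, Pre.P]; ring
  have : S.lap S.x2 = ∑ b, S.lap (S.x b * S.x b) := by
    simp only [Pre.lap, Mov.x2, H.toIsDS.D_sum]; exact Finset.sum_comm
  simp only [this, e, Finset.sum_sub_distrib, ← Finset.mul_sum, H.tr_P, Mov.xn]

/-- `Δ⟨x,n⟩ = h + ⟨x, ∇h⟩ - |A|² ⟨x,n⟩` -/
theorem lap_xn : S.lap S.xn = S.h + ∑ a, S.x a * S.D a S.h - S.a2 * S.xn := by
  have e : ∀ b, S.lap (S.x b * S.n b) = S.x b * S.D b S.h - S.a2 * (S.x b * S.n b)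
      + 2 * S.B b b - S.h * (S.n b * S.n b) := fun b => by
    rw [H.toIsDS.lap_mul, H.gam_comm, H.gam_x, H.lap_x, H.lap_n, Mov.B]; ring
  have : S.lap S.xn = ∑ b, S.lap (S.x b * S.n b) := by
    simp only [Pre.lap, Mov.xn, H.toIsDS.D_sum]; exact Finset.sum_comm
  have e8 : S.h = ∑ b, S.B b b := rfl
  simp only [this, e, Finset.sum_sub_distrib, Finset.sum_add_distrib, ← Finset.mul_sum, H.nn, ← e8]
  rw [← Mov.xn]; ring

end IsHyp

namespace IsMov

variable (H : S.IsMov)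
include H

theorem box_B (a b : ι) : S.box (S.B a b) = S.D a S.a2 * S.n b + S.a2 * S.B a b
    + 2 * S.B3 a b + 2 * S.n a * ∑ c, ∑ e, S.B c e * S.D c (S.B e b)
    - S.D a (S.D b S.w) + S.n a * ∑ c, S.B b c * S.D c S.w - S.w * S.B2 a b := by
  have e : S.gam S.w (S.n b) = ∑ c, S.B b c * S.D c S.w :=
    Finset.sum_congr rfl fun c _ => by rw [H.toIsHyp.B_symm b c, mul_comm]; rfl
  rw [Mov.B, H.box_D, H.box_n, H.toIsDS.D_sub, H.mul, e]
  change _ = _ + _ * S.D a (S.n b) + 2 * (∑ c, S.B2 a c * S.D c (S.n b))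
    + 2 * S.n a * (∑ c, ∑ e, S.B c e * S.D c (S.D e (S.n b))) - _ + _
    - S.w * ∑ c, S.B a c * S.D c (S.n b)
  ring

/-- evolution of the mean curvature -/
theorem box_h : S.box S.h = S.a2 * S.h - S.lap S.w - S.w * S.a2 := by
  have G := H.toIsHyp
  have e1 : ∑ a, S.D a S.a2 * S.n a = 0 := by simp only [mul_comm _ (S.n _), G.n_D]
  have e2 : ∑ a, S.B3 a a = S.a3 :=
    Finset.sum_congr rfl fun a _ => Finset.sum_congr rfl fun c _ => by rw [G.B_symm c a]
  have e3 : ∑ a, 2 * S.n a * ∑ c, ∑ e, S.B c e * S.D c (S.B e a) = -(2 * S.a3) := by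
    have : ∀ a, 2 * S.n a * ∑ c, ∑ e, S.B c e * S.D c (S.B e a) =
        ∑ c, ∑ e, 2 * S.B c e * (S.n a * S.D c (S.B e a)) := fun a => by
      simp only [Finset.mul_sum]
      exact Finset.sum_congr rfl fun c _ => Finset.sum_congr rfl fun e _ => by ring
    simp only [this]
    rw [Finset.sum_comm, Finset.sum_congr rfl fun c _ => Finset.sum_comm]
    simp only [← Finset.mul_sum, G.n_DB, Mov.a3]
    simp only [Finset.mul_sum, ← Finset.sum_neg_distrib]
    exact Finset.sum_congr rfl fun c _ => Finset.sum_congr rfl fun e _ => by ring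
  have e4 : ∑ a, S.n a * ∑ c, S.B a c * S.D c S.w = 0 := by
    simp only [Finset.mul_sum, ← mul_assoc]
    rw [Finset.sum_comm]
    simp only [← Finset.sum_mul, G.n_B, zero_mul, Finset.sum_const_zero]
  have e8 : S.h = ∑ b, S.B b b := rfl
  conv_lhs => rw [e8, H.box_sum]
  simp only [H.box_B, Finset.sum_add_distrib, Finset.sum_sub_distrib, e1, e3, e4]
  simp only [← Finset.mul_sum, e2, G.tr_B2, ← e8, Pre.lap]
  ring

/-- `∂ₜ h = -(Δ V + |A|² V)` -/
theorem T_h : S.T S.h = -(S.lap S.V + S.a2 * S.V) := by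
  have := H.box_h
  rw [Mov.box, Mov.w, H.lap_add] at this
  linear_combination this

/-- evolution of `|A|²`, ambient form -/
theorem box_a2' : S.box S.a2 = -2 * S.DB2 + 2 * S.a2 * S.a2 + 4 * S.a4
    - 2 * ∑ a, ∑ b, S.B a b * S.D a (S.D b S.w) - 2 * S.w * S.a3 := by
  have G := H.toIsHyp
  have e0 : ∀ a b, S.box (S.B a b * S.B a b) = 2 * S.D a S.a2 * (S.n b * S.B a b)
      + 2 * S.a2 * (S.B a b * S.B a b) + 4 * (S.B a b * S.B3 a b)
      + (4 * (∑ c, ∑ e, S.B c e * S.D c (S.B e b)) + 2 * ∑ c, S.B b c * S.D c S.w)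
        * (S.n a * S.B a b)
      - 2 * (S.B a b * S.D a (S.D b S.w)) - 2 * S.w * (S.B2 a b * S.B a b)
      - 2 * S.gam (S.B a b) (S.B a b) := fun a b => by
    rw [H.box_mul, H.box_B]; ring
  have e1 : ∑ a, ∑ b, (4 * (∑ c, ∑ e, S.B c e * S.D c (S.B e b)) + 2 * ∑ c, S.B b c * S.D c S.w)
      * (S.n a * S.B a b) = 0 := by
    rw [Finset.sum_comm]
    simp only [← Finset.mul_sum, G.n_B, mul_zero, Finset.sum_const_zero]
  have e2 : ∑ a, ∑ b, S.B a b * S.B3 a b = S.a4 := by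
    refine Finset.sum_congr rfl fun a _ => ?_
    simp only [Mov.B3, Finset.mul_sum]
    rw [Finset.sum_comm]
    refine Finset.sum_congr rfl fun c _ => ?_
    conv_rhs => rw [show S.B2 a c * S.B2 a c = S.B2 a c * ∑ b, S.B a b * S.B b c from rfl,
      Finset.mul_sum]
    exact Finset.sum_congr rfl fun b _ => by rw [G.B_symm b c]; ring
  have e3 : ∑ a, ∑ b, S.gam (S.B a b) (S.B a b) = S.DB2 := by
    simp only [Pre.gam, Mov.DB2]
    rw [Finset.sum_congr rfl fun a _ => Finset.sum_comm, Finset.sum_comm]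
  have e8 : S.a2 = ∑ a, ∑ b, S.B a b * S.B a b := rfl
  conv_lhs => rw [e8]
  simp only [H.box_sum, e0, Finset.sum_add_distrib, Finset.sum_sub_distrib, e1]
  simp only [← Finset.mul_sum, e2, e3, G.B_n, ← e8, mul_zero, Finset.sum_const_zero, Mov.a3]
  ring

/-- evolution of `|A|²` -/
theorem box_a2 : S.box S.a2 = -2 * S.dB2 + 2 * S.a2 * S.a2
    - 2 * ∑ a, ∑ b, S.B a b * S.D a (S.D b S.w) - 2 * S.w * S.a3 := by
  rw [H.box_a2', H.toIsHyp.DB2_eq]; ring

theorem box_x2 : S.box S.x2 = 2 * S.w * S.xn - 2 * ((Fintype.card ι : R) - 1) := by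
  have e : ∀ b, S.box (S.x b * S.x b) = 2 * S.w * (S.x b * S.n b) - 2 * S.P b b := fun b => by
    rw [H.box_mul, H.box_x, H.toIsHyp.gam_x, Pre.P]; ring
  simp only [Mov.x2, H.box_sum, e, Finset.sum_sub_distrib, ← Finset.mul_sum, H.toIsHyp.tr_P,
    Mov.xn]

theorem T_xn : S.T S.xn = S.V - ∑ a, S.x a * S.D a S.V := by
  have e : ∀ b, S.T (S.x b * S.n b) = S.V * (S.n b * S.n b) - S.x b * S.D b S.V := fun b => by
    rw [H.Tmul, H.T_n, H.Tx]; ring
  simp only [Mov.xn, H.T_sum, e, Finset.sum_sub_distrib, ← Finset.mul_sum, H.nn, mul_one]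

/-! ### the mean curvature flow: `w = 0` -/

section Mcf

variable (hw : S.w = 0)
include hw

theorem mcf_x (a : ι) : S.box (S.x a) = 0 := by rw [H.box_x, hw, zero_mul]

theorem mcf_n (a : ι) : S.box (S.n a) = S.a2 * S.n a := by
  rw [H.box_n, hw, H.toIsDS.D_zero, sub_zero]

theorem mcf_D (f : R) (a : ι) : S.box (S.D a f) = S.D a (S.box f)
    + 2 * ∑ b, S.B2 a b * S.D b f + 2 * S.n a * ∑ b, ∑ c, S.B b c * S.D b (S.D c f) := by
  rw [H.box_D, hw]
  simp only [Pre.gam, H.toIsDS.D_zero, zero_mul, Finset.sum_const_zero, mul_zero, add_zero,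
    sub_zero]

theorem mcf_h : S.box S.h = S.a2 * S.h := by
  rw [H.box_h, hw]
  simp only [Pre.lap, H.toIsDS.D_zero, zero_mul, Finset.sum_const_zero, sub_zero]

theorem mcf_a2 : S.box S.a2 = -2 * S.dB2 + 2 * S.a2 * S.a2 := by
  rw [H.box_a2, hw]
  simp only [H.toIsDS.D_zero, zero_mul, Finset.sum_const_zero, mul_zero, sub_zero]

theorem mcf_x2 : S.box S.x2 = -(2 * ((Fintype.card ι : R) - 1)) := by
  rw [H.box_x2, hw]; ring

end Mcf

end IsMov

end Mov

end Crest.Agent.N250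

end
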